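import Vale.Agent.P224.PO.R5s.Val
import Vale.Agent.P224.PO.LawO
import Vale.Agent.P224.PO.LawNumO
import Vale.Agent.P224.PO.Cst

/-!
The static certificate with slack in dimension 5: the pointwise inequality and the law with
its values kept.
-/

namespace Vale.Agent.P224.PO.R5s

open Vale.Agent.P224 Vale.Agent.P224.UE Vale.Agent.P224.POS Vale.Agent.P224.PO
open scoped RealInnerProductSpace

/-- **The pointwise inequality** with the resources and the slack. -/
theorem hpos_s {E : Type*} [NormedAddCommGroup E] [InnerProductSpace ℝ E] (e x N y w : E)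
    (he : ‖e‖ ^ 2 ≤ 25 / 36) (hx : ‖x‖ = 1) (hN : ‖N‖ = 1) (hy : ‖y‖ = 1) (hw : ‖w‖ = 1)
    (hxN : ⟪x, N⟫ = 0) (hyw : ⟪y, w⟫ = 0) (hs : ⟪x, y⟫ < 1) :
    0 ≤ Vale.Agent.P224.UE.W9 1 (5111033817 / 8589934592) (-(246675413223 / 68719476736)) (164620318869 / 34359738368) (-(51767863869 / 17179869184)) (-(84007683509 / 68719476736)) (51299321161 / 34359738368) (26773133827 / 137438953472) (0)
        (dv x N y w e)
      + hsum 5 (rlH 42880953483264 rows) (dv x N y w e)
      - ((1719620175 / 8589934592) * RF (-(187 / 100)) 14 (49 / 120) (dv x N y w e)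
        + (130194055095 / 68719476736) * dv x N y w e 0 ^ 3
        + (6592790993 / 137438953472) * ((dv x N y w e 1 - dv x N y w e 2) / 2) ^ 2) := by
  have h := hposS e x N y w he hx hN hy hw hxN hyw hs
  unfold XS at h
  linarith

/-- **The law with its values kept.** -/
theorem hlaw_s {Θ u r : ℝ} (h1 : 6 / 5 ≤ Θ) (h2 : Θ ≤ 743613 / 500000) (hu : 0 ≤ u)
    (hT : Θ ^ 2 * u ≤ 1) (hr1 : u ^ 2 ≤ r) (hr2 : r ≤ u) :
    Θ * (1 + ((5111033817 / 8589934592) + (-(246675413223 / 68719476736)) + (164620318869 / 34359738368)) * u + ((-(51767863869 / 17179869184)) + (26773133827 / 137438953472)) * r + ((-(84007683509 / 68719476736)) + (51299321161 / 34359738368)) * u ^ 2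
      + (0) * ((u - r) / ((5 : ℕ) + 1))) + KH 5 * hval 5 (rlH 42880953483264 rows) u r
      ≤ Θ * (287 / 4000000 - 12357 / 100000 * u + 6763 / 25000 * u ^ 2) := by
  have hb := div_pi_bounds (N := 256 / 3) (by norm_num)
  have hK : KH 5 = (256 / 3) / Real.pi := by
    have h0 := KH_five
    have := Real.pi_pos
    rw [h0]
    try field_simp
  rw [← hK] at hb
  rw [hval_rows]
  have h := law_two (Tm := 743613 / 500000) (K := KH 5) (Q0 := -(117572808046875 / 2147329566048256)) (Q1 := (-(677288290671875 / 6441988698144768))) (Q2 := (3883591578125 / 25164018352128))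
    (P1 := (2061643137363555 / 1073664783024128)) (P2 := (-(6052652767578125 / 2147329566048256))) (P3 := (15093224645 / 1073664783024128))
    hb.1 hb.2 (by norm_num) (by norm_num) (by norm_num) (by norm_num)
    (by norm_num) (by norm_num) (by norm_num)
    (fun T hT1 hT2 => quintic_neg (by norm_num) (by norm_num) (by norm_num) (by norm_num)
      (by norm_num) (by norm_num) (by norm_num) (le_of_eq rfl) (le_of_eq rfl) (le_of_eq rfl)
      (le_of_eq rfl) (le_of_eq rfl) (le_of_eq rfl) hT1 hT2)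
    (fun T hT1 hT2 => quintic_neg (by norm_num) (by norm_num) (by norm_num) (by norm_num)
      (by norm_num) (by norm_num) (by norm_num) (le_of_eq rfl) (le_of_eq rfl) (le_of_eq rfl)
      (le_of_eq rfl) (le_of_eq rfl) (le_of_eq rfl) hT1 hT2)
    (fun T hT1 hT2 => quintic_neg (by norm_num) (by norm_num) (by norm_num) (by norm_num)
      (by norm_num) (by norm_num) (by norm_num) (le_of_eq rfl) (le_of_eq rfl) (le_of_eq rfl)
      (le_of_eq rfl) (le_of_eq rfl) (le_of_eq rfl) hT1 hT2)
    (fun T hT1 hT2 => quintic_neg (by norm_num) (by norm_num) (by norm_num) (by norm_num)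
      (by norm_num) (by norm_num) (by norm_num) (le_of_eq rfl) (le_of_eq rfl) (le_of_eq rfl)
      (le_of_eq rfl) (le_of_eq rfl) (le_of_eq rfl) hT1 hT2)
    h1 h2 hu hT hr1 hr2
  refine le_of_sub_nonpos ?_
  refine (le_of_eq ?_).trans (mul_nonpos_of_nonneg_of_nonpos
    (by norm_num : (0 : ℝ) ≤ 1 - 287 / 4000000) h.le)
  ring

/-- **The law for large volumes**, from a value of `u` on. -/
theorem hlaw_g {Θ u r u0 : ℝ} (h1 : 1487 / 1000 ≤ Θ) (h2 : Θ ≤ 743613 / 500000) (h0 : 0 ≤ u0)
    (h0' : u0 ≤ 1 / 1000) (hu : u0 ≤ u)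
    (hT : Θ ^ 2 * u ≤ 1) (hr1 : u ^ 2 ≤ r) (hr2 : r ≤ u) :
    Θ * (1 + ((5111033817 / 8589934592) + (-(246675413223 / 68719476736)) + (164620318869 / 34359738368)) * u + ((-(51767863869 / 17179869184)) + (26773133827 / 137438953472)) * r + ((-(84007683509 / 68719476736)) + (51299321161 / 34359738368)) * u ^ 2
      + (0) * ((u - r) / ((5 : ℕ) + 1))) + KH 5 * hval 5 (rlH 42880953483264 rows) u r
      ≤ Θ * (287 / 4000000 - 12357 / 100000 * u0 + 6763 / 25000 * u0 ^ 2) := by
  have hu' : 0 ≤ u := h0.trans hu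
  refine (hlaw_s (le_trans (by norm_num) h1) h2 hu' hT hr1 hr2).trans
    (mul_le_mul_of_nonneg_left ?_ (le_trans (by norm_num) h1))
  have h3 : (1487 / 1000 : ℝ) ^ 2 * u ≤ Θ ^ 2 * u :=
    mul_le_mul_of_nonneg_right (pow_le_pow_left₀ (by norm_num) h1 2) hu'
  have hum : u ≤ 4523 / 10000 := by
    norm_num at h3 ⊢
    linarith
  have h4 : (0 : ℝ) ≤ 12357 / 100000 - 6763 / 25000 * (u + u0) := by
    norm_num at hum h0' ⊢
    linarith
  have h5 := mul_nonneg (sub_nonneg.2 hu) h4
  nlinarith [h5]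

end Vale.Agent.P224.PO.R5s
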